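import Vale.Agent.P107.LE.Datum

/-!
Truncation of smooth data of the relativistic Vlasov-Maxwell system: data without any condition at
infinity agree on a given ball with an admissible datum.
-/

open MeasureTheory Set Metric Filter Topology
open scoped ContDiff

namespace Vale.Agent.P107.H586

open Vale.Agent.P107.RVM

/-! ### Smooth parameter integrals -/

section param

variable {S F : Type} [NormedAddCommGroup S] [NormedSpace ℝ S] [MeasurableSpace S] [BorelSpace S]
  [SecondCountableTopology S]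
  [NormedAddCommGroup F] [NormedSpace ℝ F] [FiniteDimensional ℝ F]

omit [MeasurableSpace S] [BorelSpace S] [SecondCountableTopology S] [FiniteDimensional ℝ F] in
theorem contDiff_fderiv_snd {E : Type} [NormedAddCommGroup E] [NormedSpace ℝ E]
    {f : S → F → E} (hf : ContDiff ℝ ∞ (Function.uncurry f)) :
    ContDiff ℝ ∞ (Function.uncurry fun s y => fderiv ℝ (f s) y) := by
  have h : ContDiff ℝ ∞ fun p : S × F => fderiv ℝ (f p.1) p.2 := by
    refine ContDiff.fderiv (f := fun (p : S × F) (y : F) => f p.1 y) (g := fun p : S × F => p.2)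
      (n := ∞) (m := ∞) ?_ contDiff_snd (by norm_num)
    exact hf.comp ((contDiff_fst.comp contDiff_fst).prodMk contDiff_snd)
  exact h

variable (ν : Measure S) [IsFiniteMeasure ν] {K : Set S}

theorem hasFDerivAt_integral_param {E : Type} [NormedAddCommGroup E] [NormedSpace ℝ E]
    (hK : IsCompact K) (hν : ν Kᶜ = 0)
    {f : S → F → E} (hf : ContDiff ℝ ∞ (Function.uncurry f)) (y0 : F) :
    HasFDerivAt (fun y => ∫ s, f s y ∂ν) (∫ s, fderiv ℝ (f s) y0 ∂ν) y0 := by
  have hf' := contDiff_fderiv_snd hf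
  have hcs : ∀ y, Continuous fun s => f s y := fun y =>
    hf.continuous.comp (continuous_id.prodMk continuous_const)
  have hcs' : ∀ y, Continuous fun s => fderiv ℝ (f s) y := fun y =>
    hf'.continuous.comp (continuous_id.prodMk continuous_const)
  have hae : ∀ᵐ s ∂ν, s ∈ K := by
    rw [ae_iff]; exact hν
  obtain ⟨C, hC⟩ := (hK.prod (isCompact_closedBall y0 1)).exists_bound_of_continuousOn
    (f := Function.uncurry fun s y => fderiv ℝ (f s) y) hf'.continuous.continuousOn
  have hint : ∀ y, Integrable (fun s => f s y) ν := by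
    intro y
    obtain ⟨C1, hC1⟩ := hK.exists_bound_of_continuousOn (f := fun s => f s y) (hcs y).continuousOn
    refine Integrable.of_bound (hcs y).aestronglyMeasurable C1 ?_
    filter_upwards [hae] with s hs using hC1 s hs
  refine hasFDerivAt_integral_of_dominated_of_fderiv_le (F := fun y s => f s y)
    (F' := fun y s => fderiv ℝ (f s) y) (bound := fun _ => C) (s := ball y0 1)
    (ball_mem_nhds y0 one_pos) ?_ (hint y0) (hcs' y0).aestronglyMeasurable ?_
    (integrable_const C) ?_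
  · exact Eventually.of_forall fun y => (hcs y).aestronglyMeasurable
  · filter_upwards [hae] with s hs y hy
    exact hC (s, y) ⟨hs, ball_subset_closedBall hy⟩
  · refine Eventually.of_forall fun s y _ => ?_
    have : ContDiff ℝ ∞ (f s) := hf.comp (contDiff_const.prodMk contDiff_id)
    exact (this.differentiable (by norm_num) y).hasFDerivAt

theorem contDiff_integral_param_aux (hK : IsCompact K) (hν : ν Kᶜ = 0) (n : ℕ) :
    ∀ (E : Type) [NormedAddCommGroup E] [NormedSpace ℝ E] (f : S → F → E),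
      ContDiff ℝ ∞ (Function.uncurry f) → ContDiff ℝ n fun y => ∫ s, f s y ∂ν := by
  induction n with
  | zero =>
    intro E _ _ f hf
    rw [Nat.cast_zero, contDiff_zero, continuous_iff_continuousAt]
    exact fun y => (hasFDerivAt_integral_param ν hK hν hf y).continuousAt
  | succ n ih =>
    intro E _ _ f hf
    rw [show ((n + 1 : ℕ) : WithTop ℕ∞) = (n : WithTop ℕ∞) + 1 by push_cast; rfl,
      contDiff_succ_iff_fderiv]
    refine ⟨fun y => (hasFDerivAt_integral_param ν hK hν hf y).differentiableAt, by simp, ?_⟩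
    have h : (fderiv ℝ fun y => ∫ s, f s y ∂ν) = fun y => ∫ s, fderiv ℝ (f s) y ∂ν := by
      funext y
      exact (hasFDerivAt_integral_param ν hK hν hf y).fderiv
    rw [h]
    exact ih (F →L[ℝ] E) _ (contDiff_fderiv_snd hf)

/-- Smoothness of parameter integrals. -/
theorem contDiff_integral_param {E : Type} [NormedAddCommGroup E] [NormedSpace ℝ E]
    (hK : IsCompact K) (hν : ν Kᶜ = 0)
    {f : S → F → E} (hf : ContDiff ℝ ∞ (Function.uncurry f)) :
    ContDiff ℝ ∞ fun y => ∫ s, f s y ∂ν := by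
  rw [contDiff_infty]
  exact fun n => contDiff_integral_param_aux ν hK hν n E f hf

end param

/-! ### Partial derivatives -/

theorem contDiff_pd {g : V3 → ℝ} (hg : ContDiff ℝ ∞ g) (i : Fin 3) : ContDiff ℝ ∞ (pd i g) := by
  have h : ContDiff ℝ ∞ (fderiv ℝ g) := hg.fderiv_right (m := ∞) (by norm_num)
  exact h.clm_apply contDiff_const

theorem pd_add {f g : V3 → ℝ} (hf : ContDiff ℝ ∞ f) (hg : ContDiff ℝ ∞ g) (i : Fin 3) :
    pd i (fun x => f x + g x) = fun x => pd i f x + pd i g x := by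
  funext x
  unfold pd
  rw [fderiv_fun_add (hf.differentiable (by norm_num) x) (hg.differentiable (by norm_num) x)]
  rfl

theorem contDiff_foldr {g : V3 → ℝ} (hg : ContDiff ℝ ∞ g) (s : List (Fin 3)) :
    ContDiff ℝ ∞ (s.foldr pd g) := by
  induction s with
  | nil => exact hg
  | cons i s ih => exact contDiff_pd ih i

theorem foldr_add {f g : V3 → ℝ} (hf : ContDiff ℝ ∞ f) (hg : ContDiff ℝ ∞ g)
    (s : List (Fin 3)) :
    s.foldr pd (fun x => f x + g x) = fun x => s.foldr pd f x + s.foldr pd g x := by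
  induction s with
  | nil => rfl
  | cons i s ih =>
    show pd i (s.foldr pd (fun x => f x + g x)) = _
    rw [ih, pd_add (contDiff_foldr hf s) (contDiff_foldr hg s)]
    rfl

theorem hasCompactSupport_pd {g : V3 → ℝ} (hg : HasCompactSupport g) (i : Fin 3) :
    HasCompactSupport (pd i g) :=
  hg.fderiv_apply ℝ _

theorem hasCompactSupport_foldr {g : V3 → ℝ} (hg : HasCompactSupport g) (s : List (Fin 3)) :
    HasCompactSupport (s.foldr pd g) := by
  induction s with
  | nil => exact hg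
  | cons i s ih => exact hasCompactSupport_pd ih i

theorem bounded_of_compact {g : V3 → ℝ} (hg : ContDiff ℝ ∞ g) (hc : HasCompactSupport g)
    (s : List (Fin 3)) : ∃ C, ∀ x, |s.foldr pd g x| ≤ C := by
  obtain ⟨C, hC⟩ := (hasCompactSupport_foldr hc s).exists_bound_of_continuous
    (contDiff_foldr hg s).continuous
  exact ⟨C, hC⟩

/-! ### Functions which are homogeneous outside of a ball -/

/-- `g` is homogeneous of degree `-k` outside of the ball of radius `ρ`. -/
def HomOut (ρ : ℝ) (k : ℕ) (g : V3 → ℝ) : Prop :=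
  ∀ x, ρ < ‖x‖ → ∀ l : ℝ, 1 ≤ l → l ^ k * g (l • x) = g x

theorem HomOut.pd {ρ : ℝ} {k : ℕ} {g : V3 → ℝ} (h : HomOut ρ k g)
    (hg : ContDiff ℝ ∞ g) (i : Fin 3) : HomOut ρ (k + 1) (RVM.pd i g) := by
  intro x hx l hl
  have hgd : ∀ y, DifferentiableAt ℝ g y := fun y => hg.differentiable (by norm_num) y
  have hev : (fun y => l ^ k * g (l • y)) =ᶠ[𝓝 x] g := by
    have : {y : V3 | ρ < ‖y‖} ∈ 𝓝 x := (isOpen_lt continuous_const continuous_norm).mem_nhds hx
    filter_upwards [this] with y hy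
    exact h y hy l hl
  have h1 : HasFDerivAt (fun y => l ^ k * g (l • y))
      (l ^ k • ((fderiv ℝ g (l • x)).comp (l • ContinuousLinearMap.id ℝ V3))) x := by
    have h2 : HasFDerivAt (fun y : V3 => l • y) (l • ContinuousLinearMap.id ℝ V3) x :=
      (hasFDerivAt_id x).const_smul l
    exact ((hgd (l • x)).hasFDerivAt.comp x h2).const_mul (l ^ k)
  have h3 := h1.fderiv
  rw [hev.fderiv_eq] at h3
  unfold RVM.pd
  rw [h3]
  simp only [_root_.smul_apply, ContinuousLinearMap.comp_apply,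
    ContinuousLinearMap.id_apply, map_smul, smul_eq_mul]
  ring

theorem HomOut.foldr {ρ : ℝ} {k : ℕ} {g : V3 → ℝ} (h : HomOut ρ k g)
    (hg : ContDiff ℝ ∞ g) (s : List (Fin 3)) : HomOut ρ (k + s.length) (s.foldr RVM.pd g) := by
  induction s with
  | nil => exact h
  | cons i s ih =>
    have := ih.pd (contDiff_foldr hg s) i
    rw [List.length_cons, ← add_assoc]
    exact this

theorem HomOut.bound {ρ : ℝ} (hρ : 0 ≤ ρ) {k : ℕ} {g : V3 → ℝ} (h : HomOut ρ k g)
    (hg : Continuous g) : ∃ C, 0 ≤ C ∧ ∀ x, (1 + ‖x‖) ^ k * |g x| ≤ C := by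
  obtain ⟨C, hC⟩ := (isCompact_closedBall (0 : V3) (ρ + 1)).exists_bound_of_continuousOn
    (f := g) hg.continuousOn
  have hC0 : 0 ≤ C := (norm_nonneg _).trans (hC 0 (mem_closedBall_self (by linarith)))
  refine ⟨(ρ + 2) ^ k * C, by positivity, fun x => ?_⟩
  rcases le_or_gt ‖x‖ (ρ + 1) with hx | hx
  · have h1 := hC x (mem_closedBall_zero_iff.2 hx)
    rw [Real.norm_eq_abs] at h1
    have h2 : (1 + ‖x‖) ^ k ≤ (ρ + 2) ^ k :=
      pow_le_pow_left₀ (by positivity) (by linarith) k
    exact mul_le_mul h2 h1 (abs_nonneg _) (by positivity)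
  · have hx0 : 0 < ‖x‖ := by linarith
    set l : ℝ := ‖x‖ / (ρ + 1) with hl
    have hl1 : 1 ≤ l := by rw [hl, one_le_div (by linarith)]; exact hx.le
    have hl0 : 0 < l := by linarith
    set y : V3 := l⁻¹ • x with hy
    have hyn : ‖y‖ = ρ + 1 := by
      rw [hy, norm_smul, norm_inv, Real.norm_of_nonneg hl0.le, hl]
      field_simp
    have hly : l • y = x := by rw [hy, smul_smul, mul_inv_cancel₀ hl0.ne', one_smul]
    have h1 := h y (by rw [hyn]; linarith) l hl1
    rw [hly] at h1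
    have h2 := hC y (mem_closedBall_zero_iff.2 hyn.le)
    rw [Real.norm_eq_abs, ← h1, abs_mul, abs_of_pos (by positivity)] at h2
    have h3 : 1 + ‖x‖ ≤ (ρ + 2) * l := by
      rw [hl, mul_div_assoc', le_div_iff₀ (by linarith)]
      nlinarith
    calc (1 + ‖x‖) ^ k * |g x| ≤ ((ρ + 2) * l) ^ k * |g x| := by
          gcongr
      _ = (ρ + 2) ^ k * (l ^ k * |g x|) := by rw [mul_pow]; ring
      _ ≤ (ρ + 2) ^ k * C := by gcongr

/-! ### The radial field with a given divergence -/

/-- The factor of the radial field. -/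
noncomputable def Phi (h : V3 → ℝ) (x : V3) : ℝ := ∫ s in (0 : ℝ)..1, s ^ 2 * h (s • x)

theorem contDiff_Phi {h : V3 → ℝ} (hh : ContDiff ℝ ∞ h) : ContDiff ℝ ∞ (Phi h) := by
  have e : Phi h = fun x => ∫ s, s ^ 2 * h (s • x) ∂(volume.restrict (Ioc (0 : ℝ) 1)) := by
    funext x
    unfold Phi
    rw [intervalIntegral.integral_of_le zero_le_one]
  rw [e]
  have : IsFiniteMeasure (volume.restrict (Ioc (0 : ℝ) 1)) := inferInstance
  refine contDiff_integral_param (S := ℝ) (F := V3) (volume.restrict (Ioc (0 : ℝ) 1))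
    (K := Icc 0 1) isCompact_Icc ?_ (f := fun s x => s ^ 2 * h (s • x)) ?_
  · rw [Measure.restrict_apply isClosed_Icc.isOpen_compl.measurableSet]
    convert measure_empty (μ := (volume : Measure ℝ))
    ext s
    simp only [mem_inter_iff, mem_compl_iff, mem_Icc, mem_Ioc, mem_empty_iff_false, iff_false]
    rintro ⟨h1, h2, h3⟩
    exact h1 ⟨h2.le, h3⟩
  · have h1 : ContDiff ℝ ∞ fun p : ℝ × V3 => p.1 • p.2 := contDiff_fst.smul contDiff_snd
    exact (contDiff_fst.pow 2).mul (hh.comp h1)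

/-- The scaled integral. -/
theorem Phi_scale {h : V3 → ℝ} (x : V3) {l : ℝ} (hl : 0 < l) :
    l ^ 3 * Phi h (l • x) = ∫ t in (0 : ℝ)..l, t ^ 2 * h (t • x) := by
  unfold Phi
  have h1 := intervalIntegral.integral_comp_mul_left (a := 0) (b := 1)
    (fun t : ℝ => t ^ 2 * h (t • x)) hl.ne'
  rw [mul_zero, mul_one, smul_eq_mul] at h1
  have h2 : ∫ s in (0 : ℝ)..1, s ^ 2 * h (s • l • x) =
      (l ^ 2)⁻¹ * ∫ s in (0 : ℝ)..1, (l * s) ^ 2 * h ((l * s) • x) := by
    rw [← intervalIntegral.integral_const_mul]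
    refine intervalIntegral.integral_congr fun s _ => ?_
    show s ^ 2 * h (s • l • x) = (l ^ 2)⁻¹ * ((l * s) ^ 2 * h ((l * s) • x))
    rw [smul_smul, mul_comm s l]
    field_simp
  rw [h2, h1]
  field_simp

theorem radial_identity {h : V3 → ℝ} (hh : ContDiff ℝ ∞ h) (x : V3) :
    3 * Phi h x + fderiv ℝ (Phi h) x x = h x := by
  have hΦ := contDiff_Phi hh
  have hd : HasFDerivAt (Phi h) (fderiv ℝ (Phi h) x) ((1 : ℝ) • x) := by
    rw [one_smul]
    exact (hΦ.differentiable (by norm_num) x).hasFDerivAt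
  have h1 : HasDerivAt (fun l : ℝ => l ^ 3 * Phi h (l • x))
      (3 * Phi h x + fderiv ℝ (Phi h) x x) 1 := by
    have h2 : HasDerivAt (fun l : ℝ => l • x) x 1 := by
      simpa using (hasDerivAt_id (1 : ℝ)).smul_const x
    have h3 : HasDerivAt (Phi h ∘ fun l : ℝ => l • x) (fderiv ℝ (Phi h) x x) 1 :=
      hd.comp_hasDerivAt (1 : ℝ) h2
    have h4 : HasDerivAt (fun l : ℝ => l ^ 3) (3 * 1 ^ 2) 1 := by
      simpa using hasDerivAt_pow 3 (1 : ℝ)
    have h5 : HasDerivAt (fun l : ℝ => l ^ 3 * Phi h (l • x))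
        (3 * 1 ^ 2 * Phi h ((1 : ℝ) • x) + 1 ^ 3 * fderiv ℝ (Phi h) x x) 1 := h4.mul h3
    rw [one_smul] at h5
    simpa using h5
  have h6 : HasDerivAt (fun l : ℝ => ∫ t in (0 : ℝ)..l, t ^ 2 * h (t • x)) (h x) 1 := by
    have hc : Continuous fun t : ℝ => t ^ 2 * h (t • x) := by
      have := hh.continuous
      fun_prop
    have := intervalIntegral.integral_hasDerivAt_right (hc.intervalIntegrable 0 1)
      (hc.stronglyMeasurableAtFilter _ _) hc.continuousAt
    simpa using this
  have h7 : (fun l : ℝ => l ^ 3 * Phi h (l • x)) =ᶠ[𝓝 1]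
      fun l => ∫ t in (0 : ℝ)..l, t ^ 2 * h (t • x) := by
    filter_upwards [lt_mem_nhds (zero_lt_one (α := ℝ))] with l hl
    exact Phi_scale x hl
  exact (h1.congr_of_eventuallyEq h7.symm).unique h6

theorem Phi_hom {h : V3 → ℝ} (hh : Continuous h) {ρ : ℝ} (hs : ∀ x, ρ < ‖x‖ → h x = 0) :
    HomOut ρ 3 (Phi h) := by
  intro x hx l hl
  rw [Phi_scale x (by linarith)]
  have hc : Continuous fun t : ℝ => t ^ 2 * h (t • x) := by fun_prop
  have h1 := intervalIntegral.integral_add_adjacent_intervals (hc.intervalIntegrable 0 1)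
    (hc.intervalIntegrable 1 l) (μ := volume)
  rw [← h1]
  have h2 : ∫ t in (1 : ℝ)..l, t ^ 2 * h (t • x) = 0 := by
    refine (intervalIntegral.integral_congr (g := fun _ => (0 : ℝ)) fun t ht => ?_).trans (by simp)
    rw [uIcc_of_le hl] at ht
    show t ^ 2 * h (t • x) = 0
    rw [hs, mul_zero]
    rw [norm_smul, Real.norm_of_nonneg (by linarith [ht.1])]
    calc ρ < ‖x‖ := hx
      _ = 1 * ‖x‖ := (one_mul _).symm
      _ ≤ t * ‖x‖ := mul_le_mul_of_nonneg_right ht.1 (norm_nonneg _)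
  rw [h2, add_zero]
  rfl

/-- The radial field. -/
noncomputable def rad (h : V3 → ℝ) (x : V3) : V3 := fun i => x i * Phi h x

theorem contDiff_rad {h : V3 → ℝ} (hh : ContDiff ℝ ∞ h) (i : Fin 3) :
    ContDiff ℝ ∞ (fun x => rad h x i) :=
  (contDiff_apply ℝ ℝ i).mul (contDiff_Phi hh)

theorem rad_hom {h : V3 → ℝ} (hh : Continuous h) {ρ : ℝ} (hs : ∀ x, ρ < ‖x‖ → h x = 0)
    (i : Fin 3) : HomOut ρ 2 (fun x => rad h x i) := by
  intro x hx l hl
  have := Phi_hom hh hs x hx l hl
  show l ^ 2 * ((l • x) i * Phi h (l • x)) = x i * Phi h x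
  rw [← this]
  simp only [Pi.smul_apply, smul_eq_mul]
  ring

theorem sum_single (x : V3) : ∑ i, x i • (Pi.single i (1 : ℝ) : V3) = x := by
  ext j
  simp [Finset.sum_apply, Pi.single_apply]

theorem div_rad {h : V3 → ℝ} (hh : ContDiff ℝ ∞ h) (x : V3) : div (rad h) x = h x := by
  have hΦ := (contDiff_Phi hh).differentiable (by norm_num) x
  have h1 : ∀ i : Fin 3, pd i (fun y => rad h y i) x =
      Phi h x + fderiv ℝ (Phi h) x (x i • (Pi.single i (1 : ℝ) : V3)) := by
    intro i
    unfold pd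
    have h2 : HasFDerivAt (fun y : V3 => y i) (ContinuousLinearMap.proj (R := ℝ) i) x :=
      (ContinuousLinearMap.proj (R := ℝ) (φ := fun _ : Fin 3 => ℝ) i).hasFDerivAt
    have h3 : fderiv ℝ (fun y : V3 => y i * Phi h y) x =
        x i • fderiv ℝ (Phi h) x +
          Phi h x • (ContinuousLinearMap.proj (R := ℝ) (φ := fun _ : Fin 3 => ℝ) i) :=
      (h2.mul hΦ.hasFDerivAt).fderiv
    have h4 : (fun y => rad h y i) = fun y => y i * Phi h y := rfl
    rw [h4, h3]
    simp only [_root_.add_apply, _root_.smul_apply,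
      ContinuousLinearMap.proj_apply, Pi.single_eq_same, smul_eq_mul, mul_one, map_smul]
    ring
  unfold div
  simp only [h1, Finset.sum_add_distrib, Finset.sum_const, Finset.card_univ, Fintype.card_fin]
  rw [← map_sum, sum_single, ← radial_identity hh x]
  simp

theorem rad_dataField {h : V3 → ℝ} (hh : ContDiff ℝ ∞ h) {ρ : ℝ} (hρ : 0 ≤ ρ)
    (hs : ∀ x, ρ < ‖x‖ → h x = 0) :
    (∀ (i : Fin 3) (s : List (Fin 3)), ∃ C, ∀ x, |s.foldr pd (fun y => rad h y i) x| ≤ C) ∧
      MemLp (rad h) 2 volume := by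
  constructor
  · intro i s
    obtain ⟨C, hC0, hC⟩ := ((rad_hom hh.continuous hs i).foldr (contDiff_rad hh i) s).bound hρ
      (contDiff_foldr (contDiff_rad hh i) s).continuous
    refine ⟨C, fun x => le_trans ?_ (hC x)⟩
    have : (1 : ℝ) ≤ (1 + ‖x‖) ^ (2 + s.length) := one_le_pow₀ (by linarith [norm_nonneg x])
    calc _ = 1 * |s.foldr pd (fun y => rad h y i) x| := (one_mul _).symm
      _ ≤ _ := mul_le_mul_of_nonneg_right this (abs_nonneg _)
  · have hb : ∀ i : Fin 3, ∃ C, 0 ≤ C ∧ ∀ x, (1 + ‖x‖) ^ 2 * |rad h x i| ≤ C := fun i =>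
      (rad_hom hh.continuous hs i).bound hρ (contDiff_rad hh i).continuous
    choose C hC0 hC using hb
    have hcont : Continuous (rad h) := continuous_pi fun i => (contDiff_rad hh i).continuous
    set g : V3 → ℝ := fun x => (∑ i, C i) * ((1 + ‖x‖) ^ 2)⁻¹ with hg
    have hgL : MemLp g 2 volume := by
      have hgc : Continuous g := by
        refine continuous_const.mul (Continuous.inv₀ (by fun_prop) fun x => ?_)
        positivity
      rw [memLp_two_iff_integrable_sq hgc.aestronglyMeasurable]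
      have h1 : Integrable (fun x : V3 => (1 + ‖x‖) ^ (-(4 : ℝ))) volume :=
        integrable_one_add_norm (by simp; norm_num)
      have h2 : (fun x : V3 => g x ^ 2) = fun x => (∑ i, C i) ^ 2 * (1 + ‖x‖) ^ (-(4 : ℝ)) := by
        funext x
        rw [hg]
        have h3 : (0 : ℝ) < 1 + ‖x‖ := by positivity
        show ((∑ i, C i) * ((1 + ‖x‖) ^ 2)⁻¹) ^ 2 = _
        rw [mul_pow, Real.rpow_neg h3.le]
        congr 1
        rw [inv_pow, ← pow_mul]
        norm_cast
      rw [h2]
      exact h1.const_mul _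
    refine hgL.mono hcont.aestronglyMeasurable (Eventually.of_forall fun x => ?_)
    have h3 : (0 : ℝ) < (1 + ‖x‖) ^ 2 := by positivity
    have hsum : 0 ≤ ∑ i, C i := Finset.sum_nonneg fun i _ => hC0 i
    rw [Real.norm_of_nonneg (by positivity : 0 ≤ g x), pi_norm_le_iff_of_nonneg (by positivity)]
    intro i
    rw [Real.norm_eq_abs, hg]
    show |rad h x i| ≤ (∑ i, C i) * ((1 + ‖x‖) ^ 2)⁻¹
    rw [← div_eq_mul_inv, le_div_iff₀ h3, mul_comm]
    exact (hC i x).trans (Finset.single_le_sum (fun i _ => hC0 i) (Finset.mem_univ i))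

theorem rad_zero {h : V3 → ℝ} {r : ℝ} (hs : ∀ x, ‖x‖ < r → h x = 0) {x : V3} (hx : ‖x‖ < r) :
    rad h x = 0 := by
  have : Phi h x = 0 := by
    unfold Phi
    refine (intervalIntegral.integral_congr (g := fun _ => (0 : ℝ)) fun t ht => ?_).trans (by simp)
    rw [uIcc_of_le zero_le_one] at ht
    show t ^ 2 * h (t • x) = 0
    rw [hs, mul_zero]
    rw [norm_smul, Real.norm_of_nonneg ht.1]
    calc t * ‖x‖ ≤ 1 * ‖x‖ := mul_le_mul_of_nonneg_right ht.2 (norm_nonneg _)
      _ < r := by rw [one_mul]; exact hx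
  funext i
  show x i * Phi h x = 0
  rw [this, mul_zero]

/-! ### Truncation -/

theorem norm_le_len (x : V3) : ‖x‖ ≤ len x := by
  unfold len
  rw [pi_norm_le_iff_of_nonneg (Real.sqrt_nonneg _)]
  intro i
  rw [Real.norm_eq_abs]
  exact Real.abs_le_sqrt (Finset.single_le_sum (f := fun i => x i ^ 2)
    (fun i _ => sq_nonneg _) (Finset.mem_univ i))

theorem len_le_norm (x : V3) : len x ≤ 2 * ‖x‖ := by
  unfold len
  rw [Real.sqrt_le_left (by positivity)]
  have h : ∀ i ∈ (Finset.univ : Finset (Fin 3)), x i ^ 2 ≤ ‖x‖ ^ 2 := by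
    intro i _
    have h1 := norm_le_pi_norm x i
    rw [Real.norm_eq_abs] at h1
    rw [← sq_abs (x i)]
    exact pow_le_pow_left₀ (abs_nonneg _) h1 2
  have h2 := Finset.sum_le_sum h
  rw [Finset.sum_const, Finset.card_univ, Fintype.card_fin, nsmul_eq_mul] at h2
  push_cast at h2
  nlinarith [sq_nonneg ‖x‖]

theorem div_add' {F G : V3 → V3} (hF : ∀ i, ContDiff ℝ ∞ (fun x => F x i))
    (hG : ∀ i, ContDiff ℝ ∞ (fun x => G x i)) (x : V3) :
    div (fun y i => F y i + G y i) x = div F x + div G x := by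
  unfold div
  rw [← Finset.sum_add_distrib]
  refine Finset.sum_congr rfl fun i _ => ?_
  rw [pd_add (hF i) (hG i)]

theorem contDiff_div {F : V3 → V3} (hF : ∀ i, ContDiff ℝ ∞ (fun x => F x i)) :
    ContDiff ℝ ∞ (div F) := by
  unfold div
  exact ContDiff.sum fun i _ => contDiff_pd (hF i) i

theorem exists_field {χ : V3 → ℝ} (hχ : ContDiff ℝ ∞ χ) (hχc : HasCompactSupport χ)
    {F : V3 → V3} (hF : ∀ i, ContDiff ℝ ∞ (fun x => F x i)) {ρ : V3 → ℝ}
    (hρ : ContDiff ℝ ∞ ρ) (hρc : HasCompactSupport ρ) {r : ℝ} (hr : ∀ x, ‖x‖ < r → χ x = 1)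
    (hdiv : ∀ x, ‖x‖ < r → div F x = ρ x) :
    ∃ F₁ : V3 → V3, IsDataField F₁ ∧ (∀ x, ‖x‖ < r → F₁ x = F x) ∧ ∀ x, div F₁ x = ρ x := by
  set G : V3 → V3 := fun x i => χ x * F x i with hGdef
  have hG : ∀ i, ContDiff ℝ ∞ (fun x => G x i) := fun i => hχ.mul (hF i)
  have hGc : ∀ i, HasCompactSupport (fun x => G x i) := fun i => hχc.mul_right
  set h : V3 → ℝ := fun x => ρ x - div G x with hhdef
  have hh : ContDiff ℝ ∞ h := hρ.sub (contDiff_div hG)
  have hdivc : HasCompactSupport (div G) := by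
    have e : div G = fun x => (pd 0 (fun y => G y 0) x + pd 1 (fun y => G y 1) x) +
        pd 2 (fun y => G y 2) x := by
      funext x
      unfold div
      rw [Fin.sum_univ_three]
    rw [e]
    exact ((hasCompactSupport_pd (hGc 0) 0).add (hasCompactSupport_pd (hGc 1) 1)).add
      (hasCompactSupport_pd (hGc 2) 2)
  have hhc : HasCompactSupport h := by
    have e : h = fun x => ρ x + -(div G x) := by funext x; rw [hhdef]; ring
    rw [e]
    refine hρc.add ?_
    exact hdivc.comp_left (g := fun t : ℝ => -t) (by simp)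
  have hhz : ∀ x, ‖x‖ < r → h x = 0 := by
    intro x hx
    have hev : ∀ i, (fun y => G y i) =ᶠ[𝓝 x] fun y => F y i := by
      intro i
      have : {y : V3 | ‖y‖ < r} ∈ 𝓝 x := (isOpen_lt continuous_norm continuous_const).mem_nhds hx
      filter_upwards [this] with y hy
      show χ y * F y i = F y i
      rw [hr y hy, one_mul]
    have h1 : div G x = div F x := by
      unfold div pd
      refine Finset.sum_congr rfl fun i _ => ?_
      rw [(hev i).fderiv_eq]
    show ρ x - div G x = 0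
    rw [h1, hdiv x hx, sub_self]
  obtain ⟨ρ₀, hρ₀⟩ := (isBounded_iff_forall_norm_le.1 hhc.isCompact.isBounded)
  have hout : ∀ x, max ρ₀ 0 < ‖x‖ → h x = 0 := by
    intro x hx
    by_contra hne
    have h1 := hρ₀ x (subset_tsupport _ hne)
    have h2 := le_max_left ρ₀ 0
    linarith
  obtain ⟨hb, hL2⟩ := rad_dataField hh (le_max_right ρ₀ 0) hout
  refine ⟨fun x i => G x i + rad h x i, ⟨fun i => (hG i).add (contDiff_rad hh i), ?_, ?_⟩, ?_, ?_⟩
  · intro i s
    obtain ⟨C₁, hC₁⟩ := bounded_of_compact (hG i) (hGc i) s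
    obtain ⟨C₂, hC₂⟩ := hb i s
    refine ⟨C₁ + C₂, fun x => ?_⟩
    rw [foldr_add (hG i) (contDiff_rad hh i)]
    exact (abs_add_le _ _).trans (add_le_add (hC₁ x) (hC₂ x))
  · have hGcont : Continuous G := continuous_pi fun i => (hG i).continuous
    have hGcs : HasCompactSupport G := by
      refine hχc.mono fun x hx => ?_
      rw [Function.mem_support] at hx ⊢
      intro h0
      apply hx
      funext i
      show χ x * F x i = 0
      rw [h0, zero_mul]
    have h1 : MemLp G 2 volume := hGcont.memLp_of_hasCompactSupport hGcs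
    exact h1.add hL2
  · intro x hx
    funext i
    show χ x * F x i + rad h x i = F x i
    rw [rad_zero hhz hx, hr x hx, one_mul]
    exact add_zero _
  · intro x
    rw [div_add' hG (contDiff_rad hh), div_rad hh]
    show div G x + (ρ x - div G x) = ρ x
    ring

/-- Smooth data without any condition at infinity agree on a given ball with an admissible
datum. -/
theorem exists_truncation_core {f₀ : V3 → V3 → ℝ} {E₀ B₀ : V3 → V3}
    (hf : ContDiff ℝ ∞ (fun z : V3 × V3 => f₀ z.1 z.2))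
    (hsupp : ∀ R : ℝ, ∃ P : ℝ, ∀ x v, len x ≤ R → f₀ x v ≠ 0 → len v ≤ P)
    (hnn : ∀ x v, 0 ≤ f₀ x v)
    (hE : ∀ i, ContDiff ℝ ∞ (fun x => E₀ x i)) (hB : ∀ i, ContDiff ℝ ∞ (fun x => B₀ x i))
    (hgauss : ∀ x, div E₀ x = ∫ v, f₀ x v) (hmag : ∀ x, div B₀ x = 0) (R : ℝ) :
    ∃ (f₁ : V3 → V3 → ℝ) (E₁ B₁ : V3 → V3), IsAdmissible f₁ E₁ B₁ ∧
      (∀ x v, len x ≤ R → f₁ x v = f₀ x v) ∧ (∀ x, len x ≤ R → E₁ x = E₀ x) ∧
      (∀ x, len x ≤ R → B₁ x = B₀ x) := by
  set r : ℝ := |R| + 1 with hr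
  have hr0 : 0 < r := by positivity
  have hRr : R < r := by rw [hr]; linarith [le_abs_self R]
  let χ : ContDiffBump (0 : V3) := ⟨r, r + 1, hr0, by linarith⟩
  have hχ : ContDiff ℝ ∞ (fun x => χ x) := χ.contDiff
  have hχc : HasCompactSupport (fun x => χ x) := χ.hasCompactSupport
  have hχ1 : ∀ x : V3, ‖x‖ < r → χ x = 1 := fun x hx =>
    χ.one_of_mem_closedBall (mem_closedBall_zero_iff.2 hx.le)
  have hχ0 : ∀ x : V3, r + 1 ≤ ‖x‖ → χ x = 0 := fun x hx =>
    χ.zero_of_le_dist (by rw [dist_zero_right]; exact hx)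
  obtain ⟨P, hP⟩ := hsupp (2 * (r + 1))
  set f₁ : V3 → V3 → ℝ := fun x v => χ x * f₀ x v with hf₁
  have hf₁s : ContDiff ℝ ∞ (fun z : V3 × V3 => f₁ z.1 z.2) := (hχ.comp contDiff_fst).mul hf
  have hf₁z : ∀ x v, P < ‖v‖ → f₁ x v = 0 := by
    intro x v hv
    by_contra hne
    have hx : χ x ≠ 0 := fun h => hne (by show χ x * f₀ x v = 0; rw [h, zero_mul])
    have hfx : f₀ x v ≠ 0 := fun h => hne (by show χ x * f₀ x v = 0; rw [h, mul_zero])
    have hxn : ‖x‖ < r + 1 := by
      by_contra hcon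
      exact hx (hχ0 x (not_lt.1 hcon))
    have h1 := hP x v ((len_le_norm x).trans (by linarith)) hfx
    have h2 := norm_le_len v
    linarith
  have hρ : ContDiff ℝ ∞ (fun x => ∫ v, f₁ x v) := by
    have e : (fun x => ∫ v, f₁ x v) =
        fun x => ∫ v, f₁ x v ∂(volume.restrict (closedBall (0 : V3) P)) := by
      funext x
      rw [setIntegral_eq_integral_of_forall_compl_eq_zero]
      intro v hv
      refine hf₁z x v ?_
      rwa [mem_closedBall_zero_iff, not_le] at hv
    rw [e]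
    have : IsFiniteMeasure (volume.restrict (closedBall (0 : V3) P)) :=
      ⟨by rw [Measure.restrict_apply_univ]; exact measure_closedBall_lt_top⟩
    refine contDiff_integral_param (S := V3) (F := V3) (volume.restrict (closedBall (0 : V3) P))
      (K := closedBall (0 : V3) P) (isCompact_closedBall _ _) ?_ (f := fun v x => f₁ x v) ?_
    · rw [Measure.restrict_apply isClosed_closedBall.isOpen_compl.measurableSet,
        compl_inter_self, measure_empty]
    · exact hf₁s.comp (contDiff_snd.prodMk contDiff_fst)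
  have hρc : HasCompactSupport (fun x => ∫ v, f₁ x v) := by
    refine hχc.mono fun x hx => ?_
    rw [Function.mem_support] at hx ⊢
    intro h0
    apply hx
    have : ∀ v, f₁ x v = 0 := fun v => by show χ x * f₀ x v = 0; rw [h0, zero_mul]
    simp only [this, integral_zero]
  have hEdiv : ∀ x, ‖x‖ < r → div E₀ x = ∫ v, f₁ x v := by
    intro x hx
    rw [hgauss]
    refine integral_congr_ae (Eventually.of_forall fun v => ?_)
    show f₀ x v = χ x * f₀ x v
    rw [hχ1 x hx, one_mul]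
  obtain ⟨E₁, hE₁, hE₁e, hE₁d⟩ := exists_field hχ hχc hE hρ hρc hχ1 hEdiv
  obtain ⟨B₁, hB₁, hB₁e, hB₁d⟩ := exists_field hχ hχc hB (ρ := fun _ => 0) contDiff_const
    HasCompactSupport.zero hχ1 (fun x _ => hmag x)
  have hlen : ∀ x : V3, len x ≤ R → ‖x‖ < r := fun x hx =>
    ((norm_le_len x).trans hx).trans_lt hRr
  refine ⟨f₁, E₁, B₁, ⟨hf₁s, ?_, fun x v => mul_nonneg χ.nonneg (hnn x v), hE₁, hB₁, hE₁d,
    hB₁d⟩, fun x v hx => ?_, fun x hx => hE₁e x (hlen x hx), fun x hx => hB₁e x (hlen x hx)⟩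
  · refine HasCompactSupport.intro ((isCompact_closedBall (0 : V3) (r + 1)).prod
      (isCompact_closedBall (0 : V3) P)) ?_
    rintro ⟨x, v⟩ hz
    show f₁ x v = 0
    rw [mem_prod, not_and_or] at hz
    rcases hz with hz | hz
    · rw [mem_closedBall_zero_iff, not_le] at hz
      show χ x * f₀ x v = 0
      rw [hχ0 x hz.le, zero_mul]
    · rw [mem_closedBall_zero_iff, not_le] at hz
      exact hf₁z x v hz
  · show χ x * f₀ x v = f₀ x v
    rw [hχ1 x (hlen x hx), one_mul]

end Vale.Agent.P107.H586
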